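import Vale.Agent.P299.H760.Iface
import Vale.Agent.P272.K.Inv.Hess
import Vale.Agent.P272.K.Inv.Chart
import Vale.Agent.P272.K.Inv.Consts
import Vale.Agent.P272.K.MP.Local
import Vale.Agent.P272.K.N.Det
import Mathlib.Analysis.Calculus.BumpFunction.FiniteDimension

/-!
# P299, package D2-WMP-INV: maximum principle for bounded functions and invariance of the equation
-/

open scoped Manifold ContDiff ComplexOrder Topology
open Vale.Agent.P272.K Filter Metric Set
open Vale.Agent.P299.H760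

set_option maxSynthPendingDepth 3

noncomputable section

namespace Vale.Agent.P299.H975

variable {n : ℕ}

theorem opG_nonneg {G : Matrix (Fin n) (Fin n) ℂ} (hG : G.PosDef) (ξ : Cm n →L[ℝ] ℝ) :
    0 ≤ opG G (ξ.smulRight ξ) := by
  rcases eq_or_ne ξ 0 with rfl | h
  · have : (0 : Cm n →L[ℝ] ℝ).smulRight (0 : Cm n →L[ℝ] ℝ) = 0 := by ext; simp
    rw [this, map_zero]
  · rw [opG_apply]
    exact (N.trace_inv_lev_pos hG h).le

/-- the operator in terms of the complex Hessian -/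
theorem Lop_eq_cHess {g : Cm n → Matrix (Fin n) (Fin n) ℂ} {u : Cm n → ℝ} {z : Cm n}
    (hu : ContDiffAt ℝ 2 u z) :
    Lop (fun y => opG (g y)) u z = ((g z)⁻¹ * cHess u z).trace.re := by
  have h : DifferentiableAt ℝ (fderiv ℝ u) z :=
    (hu.fderiv_right (m := 1) (by norm_num)).differentiableAt (by norm_num)
  rw [N.cHess_eq_lev h]
  rfl

theorem continuousAt_op {g : Cm n → Matrix (Fin n) (Fin n) ℂ} {u : Cm n → ℝ} {z : Cm n}
    (hg : ∀ p q, ContDiffAt ℝ ∞ (fun z => g z p q) z) (h0 : (g z).det ≠ 0)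
    (hu : ContDiffAt ℝ ∞ u z) :
    ContinuousAt (fun y => ((g y)⁻¹ * cHess u y).trace.re) z := by
  have h1 : ∀ p q, ContinuousAt (fun y => (g y)⁻¹ p q) z := fun p q =>
    (contDiffAt_inv (m := 0) (fun i j => (hg i j).of_le (by simp)) h0 p q).continuousAt
  have h2 : ∀ p q, ContinuousAt (fun y => cHess u y p q) z := fun p q =>
    (contDiffAt_cHess (m := 0) (r := ∞) hu (by
      have h2 : ((0 : WithTop ℕ∞) + 1 + 1) = 2 := by norm_num
      have h3 : (2 : WithTop ℕ∞) ≤ ∞ := by norm_cast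
      exact h2.le.trans h3) p q).continuousAt
  have h3 : (fun y => ((g y)⁻¹ * cHess u y).trace.re) =
      fun y => ∑ p, ∑ q, ((g y)⁻¹ p q * cHess u y q p).re := by
    funext y
    simp only [Matrix.trace, Matrix.diag_apply, Matrix.mul_apply, Complex.re_sum]
  rw [h3]
  refine tendsto_finsetSum _ fun p _ => tendsto_finsetSum _ fun q _ => ?_
  exact Complex.continuous_re.continuousAt.comp ((h1 p q).mul (h2 q p))

section
variable {M Γ : Type} [TopologicalSpace M] [Group Γ] (P : PS n M Γ)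

theorem ac_inv_ac (γ : Γ) (m : M) : P.ac γ⁻¹ (P.ac γ m) = m := by
  rw [← P.ac_mul, inv_mul_cancel, P.ac_one]

theorem ac_ac_inv (γ : Γ) (m : M) : P.ac γ (P.ac γ⁻¹ m) = m := by
  rw [← P.ac_mul, mul_inv_cancel, P.ac_one]

theorem loc_e {i : Fin P.N} {γ : Γ} {m : M} (h : P.ac γ m ∈ (P.e i).source) (f : M → ℝ) :
    P.loc i γ f (P.e i (P.ac γ m)) = f m := by
  rw [PS.loc, (P.e i).left_inv h, ac_inv_ac]

theorem ball2_sub (i : Fin P.N) : closedBall (P.c i) (2 * P.r i) ⊆ (P.e i).target :=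
  (closedBall_subset_closedBall (by linarith [P.r_pos i])).trans (P.ball_sub i)

end

theorem wmp : WMPStatement := by
  intro n M Γ _ _ P l hl w hw hWW hs m₀
  obtain ⟨W, hW⟩ := hWW
  by_contra hneg
  push Not at hneg
  have hbdd : BddBelow (range w) := ⟨-W, by rintro _ ⟨m, rfl⟩; exact (abs_le.1 (hW m)).1⟩
  set I : ℝ := ⨅ m, w m with hIdef
  have hI : I < 0 := (ciInf_le hbdd m₀).trans_lt hneg
  have hIle : ∀ m, I ≤ w m := fun m => ciInf_le hbdd m
  let β : ∀ i, ContDiffBump (P.c i) := fun i =>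
    ⟨P.r i, 2 * P.r i, P.r_pos i, by linarith [P.r_pos i]⟩
  have hβs : ∀ i, ContDiff ℝ ∞ (β i) := fun i => (β i).contDiff
  -- the constant `K`
  have hK1 : ∀ i, ∃ K : ℝ, ∀ z ∈ closedBall (P.c i) (2 * P.r i), |P.Lo i (β i) z| ≤ K := by
    intro i
    have hc : ContinuousOn (fun z => ((P.g i z)⁻¹ * cHess (β i) z).trace.re)
        (closedBall (P.c i) (2 * P.r i)) := fun z hz =>
      (continuousAt_op (P.g_smooth i z (ball2_sub P i hz))
        (P.g_pos i z (ball2_sub P i hz)).det_pos.ne' (hβs i).contDiffAt).continuousWithinAt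
    obtain ⟨K, hK⟩ := (isCompact_closedBall (P.c i) (2 * P.r i)).exists_bound_of_continuousOn hc
    refine ⟨K, fun z hz => ?_⟩
    have h1 := hK z hz
    rw [Real.norm_eq_abs] at h1
    rw [PS.Lo, Lop_eq_cHess ((hβs i).contDiffAt.of_le (by norm_cast))]
    exact h1
  choose K0 hK0 using hK1
  obtain ⟨K, hKnn, hK⟩ : ∃ K : ℝ, 0 ≤ K ∧ ∀ i, ∀ z ∈ closedBall (P.c i) (2 * P.r i),
      |P.Lo i (β i) z| ≤ K := by
    refine ⟨∑ i, |K0 i|, Finset.sum_nonneg fun _ _ => abs_nonneg _, fun i z hz => ?_⟩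
    exact ((hK0 i z hz).trans (le_abs_self _)).trans
      (Finset.single_le_sum (f := fun i => |K0 i|) (fun _ _ => abs_nonneg _) (Finset.mem_univ i))
  -- the choice of `ε`
  set ε : ℝ := -l * I / (2 * (l + 2 * K)) with hε
  have hlK : 0 < l + 2 * K := by linarith
  have hεpos : 0 < ε := by
    rw [hε]; exact div_pos (by nlinarith) (by linarith)
  have hεeq : ε * (l + 2 * K) = -l * I / 2 := by
    rw [hε]; field_simp
  have : Nonempty M := ⟨m₀⟩
  obtain ⟨m, hm⟩ : ∃ m, w m < I + ε := exists_lt_of_ciInf_lt (by rw [← hIdef]; linarith)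
  obtain ⟨i, γ, hms, hmb⟩ := P.cover m
  set u := P.loc i γ w with hu
  set z₀ := P.e i (P.ac γ m) with hz₀
  have hu0 : u z₀ = w m := loc_e P hms w
  have huI : ∀ z, I ≤ u z := fun z => hIle _
  have hus : ∀ z ∈ (P.e i).target, ContDiffAt ℝ ∞ u z := fun z hz => hw i γ z hz
  have hr := P.r_pos i
  have hsub := ball2_sub P i
  set v : Cm n → ℝ := fun z => u z - 2 * ε * β i z with hv
  have hvc : ContinuousOn v (closedBall (P.c i) (2 * P.r i)) := by
    intro z hz
    refine ContinuousAt.continuousWithinAt ?_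
    exact (hus z (hsub hz)).continuousAt.sub
      (continuousAt_const.mul (hβs i).continuous.continuousAt)
  have hz₀m : z₀ ∈ closedBall (P.c i) (2 * P.r i) :=
    closedBall_subset_closedBall (by linarith) (ball_subset_closedBall hmb)
  obtain ⟨z₁, hz₁, hmin⟩ := (isCompact_closedBall (P.c i) (2 * P.r i)).exists_isMinOn
    ⟨z₀, hz₀m⟩ hvc
  have hβ0 : β i z₀ = 1 := (β i).one_of_mem_closedBall (ball_subset_closedBall hmb)
  have hv1 : v z₁ ≤ I - ε := by
    have h1 : v z₁ ≤ v z₀ := hmin hz₀m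
    have h2 : v z₀ = w m - 2 * ε := by
      simp only [hv, hu0, hβ0, mul_one]
    linarith
  have hball : z₁ ∈ ball (P.c i) (2 * P.r i) := by
    by_contra hnb
    have h1 : β i z₁ = 0 := (β i).zero_of_le_dist (by
      rw [mem_ball, not_lt] at hnb
      exact hnb)
    have h2 : v z₁ = u z₁ := by simp only [hv, h1, mul_zero, sub_zero]
    have := huI z₁
    linarith
  have hlocal : IsLocalMax (fun z => 2 * ε * β i z - u z) z₁ := by
    filter_upwards [isOpen_ball.mem_nhds hball] with z hz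
    have h1 : v z₁ ≤ v z := hmin (ball_subset_closedBall hz)
    simp only [hv] at h1
    linarith
  have hu2 : ContDiffAt ℝ 2 u z₁ := (hus z₁ (hsub hz₁)).of_le (by norm_cast)
  have hβ2 : ContDiffAt ℝ 2 (fun z => 2 * ε * β i z) z₁ :=
    contDiffAt_const.mul ((hβs i).contDiffAt.of_le (by norm_cast))
  have hop := MP.op_nonpos_of_max (opG (P.g i z₁)) (opG_nonneg (P.g_pos i z₁ (hsub hz₁))) 0
    hlocal (hβ2.sub hu2)
  rw [_root_.zero_apply, add_zero] at hop
  have hop2 : 2 * ε * P.Lo i (β i) z₁ - P.Lo i u z₁ ≤ 0 := by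
    refine le_trans (le_of_eq ?_) hop
    have e1 : opG (P.g i z₁) (fderiv ℝ (fderiv ℝ fun z => 2 * ε * β i z - u z) z₁) =
        Lop (fun y => opG (P.g i y)) (fun z => 2 * ε * β i z - u z) z₁ := rfl
    rw [e1, Lop_eq_cHess (hβ2.sub hu2), cHess_sub hβ2 hu2,
      cHess_const_mul _ ((hβs i).contDiffAt.of_le (by norm_cast)), PS.Lo, PS.Lo,
      Lop_eq_cHess ((hβs i).contDiffAt.of_le (by norm_cast)), Lop_eq_cHess hu2,
      Matrix.mul_sub, Matrix.trace_sub, Complex.sub_re, Matrix.mul_smul, Matrix.trace_smul,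
      smul_eq_mul, Complex.re_ofReal_mul]
  have h5 := hs i γ z₁ (hsub hz₁)
  rw [← hu] at h5
  have h6 := (abs_le.1 (hK i z₁ hz₁)).1
  have h7 : u z₁ ≤ I + ε := by
    have h8 : β i z₁ ≤ 1 := (β i).le_one
    have h9 : u z₁ = v z₁ + 2 * ε * β i z₁ := by simp only [hv]; ring
    nlinarith
  nlinarith

theorem inv : InvStatement := by
  intro n M Γ _ _ P T hT w hw
  have key : ∀ i γ, ∀ z ∈ (P.e i).target, ∃ (j : Fin P.N) (δ : Γ) (τ : Cm n → Cm n),
      ContDiffAt ℂ ω τ z ∧ τ z ∈ (P.e j).target ∧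
      P.g i z = (jmat τ z).transpose * P.g j (τ z) * (jmat τ z).map (starRingEnd ℂ) ∧
      ∀ f : M → ℝ, P.loc i γ (fun m => f (T m)) =ᶠ[𝓝 z] fun y => P.loc j δ f (τ y) := by
    intro i γ z hz
    set m := P.ac γ⁻¹ ((P.e i).symm z) with hm
    have hacm : P.ac γ m = (P.e i).symm z := ac_ac_inv P γ _
    have hsrc : P.ac γ m ∈ (P.e i).source := by
      rw [hacm]; exact (P.e i).map_target hz
    have hem : P.e i (P.ac γ m) = z := by
      rw [hacm]; exact (P.e i).right_inv hz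
    obtain ⟨j, δ, hj, -⟩ := P.cover (T m)
    have h1 := hT.2 i j γ δ m hsrc hj
    rw [hem] at h1
    refine ⟨j, δ, fun y => P.e j (P.ac δ (T (P.ac γ⁻¹ ((P.e i).symm y)))), h1.1,
      (P.e j).map_source hj, h1.2, fun f => ?_⟩
    have hc : ContinuousAt (fun y => P.ac δ (T (P.ac γ⁻¹ ((P.e i).symm y)))) z := by
      have h2 : ContinuousAt (P.e i).symm z := (P.e i).continuousAt_symm hz
      exact (((P.ac δ).continuous.comp (hT.1.comp (P.ac γ⁻¹).continuous)).continuousAt).comp h2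
    filter_upwards [hc.preimage_mem_nhds ((P.e j).open_source.mem_nhds hj)] with y hy
    show f (T (P.ac γ⁻¹ ((P.e i).symm y))) =
      f (P.ac δ⁻¹ ((P.e j).symm (P.e j (P.ac δ (T (P.ac γ⁻¹ ((P.e i).symm y)))))))
    rw [(P.e j).left_inv hy, ac_inv_ac]
  constructor
  · intro i γ z hz
    obtain ⟨j, δ, τ, hτ, hτz, -, hloc⟩ := key i γ z hz
    refine ContDiffAt.congr_of_eventuallyEq ?_ (hloc w)
    have h1 : ContDiffAt ℝ ∞ τ z := (hτ.restrict_scalars ℝ).of_le (by simp)
    exact (hw j δ (τ z) hτz).comp z h1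
  · intro l f hsol i γ z hz
    obtain ⟨j, δ, τ, hτ, hτz, hg, hloc⟩ := key i γ z hz
    have h1 : ContDiffAt ℝ ∞ τ z := (hτ.restrict_scalars ℝ).of_le (by simp)
    have hu : ContDiffAt ℝ 2 (P.loc j δ w) (τ z) := (hw j δ (τ z) hτz).of_le (by norm_cast)
    have hcomp : ContDiffAt ℝ 2 (fun y => P.loc j δ w (τ y)) z :=
      hu.comp z (h1.of_le (by norm_cast))
    have hu' : ContDiffAt ℝ 2 (P.loc i γ fun m => w (T m)) z :=
      hcomp.congr_of_eventuallyEq (hloc w)
    have hs := hsol j δ (τ z) hτz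
    rw [(hloc f).eq_of_nhds, (hloc w).eq_of_nhds]
    refine Eq.trans ?_ hs
    congr 1
    rw [PS.Lo, PS.Lo, Lop_eq_cHess hu', Lop_eq_cHess hu, cHess_congr (hloc w), cHess_comp hu hτ]
    have hdet : IsUnit (jmat τ z).det := by
      have hp := (P.g_pos i z hz).det_pos.ne'
      rw [hg, Matrix.det_mul, Matrix.det_mul, Matrix.det_transpose] at hp
      rw [isUnit_iff_ne_zero]
      intro h0
      apply hp
      rw [h0, zero_mul, zero_mul]
    rw [hg, trace_form hdet]

end Vale.Agent.P299.H975
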